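import Vale.Agent.P047.Threshold

/-- **Regular functions and dominance chains.**  Let `f` be Boolean on `{-1,1}^n`, of degree at most
`d`, and increasing in the directions `s` (unate).  Say `i` dominates `j` (`Dom f s i j`) if moving an
up-bit from `j` to `i` never decreases `f`.  If the coordinates on which `f` depends are covered by
`W` sets, on each of which any two coordinates are comparable for dominance, then `f` depends on at
most `W (2 d - 1)` coordinates, more precisely each such set of relevant coordinates has at most
`2 d - 1` elements, and `(∑_i |f^({i})|)^2 ≤ W (2 d - 1)`.  The case `W = 1` is the class of regular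
(2-monotone) functions, which contains all threshold functions. -/
theorem Vale.Agent.Results.P047.DominanceChains.result {n d W : ℕ} (f : (Fin n → Bool) → ℝ)
    (hB : ∀ x, f x = 1 ∨ f x = -1)
    (hdeg : ∀ S : Finset (Fin n), d < S.card → Vale.Agent.P047.fhat f S = 0) (s : Fin n → Bool)
    (hmono : ∀ x y : Fin n → Bool, (∀ i, x i = y i ∨ y i = s i) → f x ≤ f y)
    (C : Fin W → Finset (Fin n))
    (hC : ∀ k, ∀ i ∈ C k, ∀ j ∈ C k, i ≠ j →
      Vale.Agent.P047.Dom f s i j ∨ Vale.Agent.P047.Dom f s j i)
    (hcover : ∀ i, (∃ x, f (Function.update x i true) ≠ f (Function.update x i false)) →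
      ∃ k, i ∈ C k) :
    (∀ k, ((C k).filter (fun i =>
        ∃ x, f (Function.update x i true) ≠ f (Function.update x i false))).card ≤ 2 * d - 1) ∧
    (∑ i, |Vale.Agent.P047.fhat f {i}|) ^ 2 ≤ ((W * (2 * d - 1) : ℕ) : ℝ) :=
  ⟨fun k => Vale.Agent.P047.chain_relevant_card_le f hB hdeg s hmono _
      (fun i hi j hj hij => hC k i (Finset.mem_filter.mp hi).1 j (Finset.mem_filter.mp hj).1 hij)
      (fun i hi => (Finset.mem_filter.mp hi).2),
    Vale.Agent.P047.chains_first_level f hB hdeg s hmono C hC hcover⟩
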