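import Vale.Agent.P047.Main

/-- For every Boolean function `f` on `{-1,1}^n` of degree at most `d ≥ 2` (all Fourier
coefficients on sets of more than `d` coordinates vanish), the sum of the first-level Fourier
coefficients is at most `(97/100) d`. So `M(d) ≤ (97/100) d` for all `d ≥ 2`. -/
theorem Vale.Agent.Results.P047.FirstLevelBelowDegree.result {n d : ℕ} (hd : 2 ≤ d)
    (f : (Fin n → Bool) → ℝ) (hf : ∀ x, f x = 1 ∨ f x = -1)
    (hdeg : ∀ S : Finset (Fin n), d < S.card → Vale.Agent.P047.fhat f S = 0) :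
    ∑ i, Vale.Agent.P047.fhat f {i} ≤ (97 / 100) * (d : ℝ) :=
  Vale.Agent.P047.first_level_le hd f hf hdeg
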