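import Vale.Agent.P047.Subcube

/-- **Square-root bound for fractional subcube partitions.** Let `C_j = {x : x_i = c_j i for all
`i ∈ I j`}` be finitely many subcubes of the cube and `λ_j ≥ 0` with `∑_j λ_j 1_{C_j} = 1` on the
cube (for `λ_j ∈ {0,1}` this says that the `C_j` partition the cube). If the Boolean function `f`
is constant on each `C_j` with `λ_j ≠ 0`, then the first-level sum of `f` is at most
`√(∑_j λ_j |I_j| 2^{-|I_j|})`, the square root of the mean width, and hence at most `√D` if all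
those cells have width at most `D`. -/
theorem Vale.Agent.Results.P047.SubcubePartition.result {n : ℕ} {J : Type*} [Fintype J]
    (I : J → Finset (Fin n)) (c : J → Fin n → Bool) (lam : J → ℝ)
    (hlam : ∀ j, 0 ≤ lam j)
    (hcover : ∀ x : Fin n → Bool,
      ∑ j, (if ∀ i ∈ I j, x i = c j i then lam j else 0) = 1)
    (f : (Fin n → Bool) → ℝ) (hf : ∀ x, f x = 1 ∨ f x = -1)
    (hconst : ∀ j, lam j ≠ 0 → ∀ x, (∀ i ∈ I j, x i = c j i) → f x = f (c j)) :
    (∑ j, lam j / 2 ^ (I j).card = 1) ∧
    ∑ i, Vale.Agent.P047.fhat f {i} ≤ Real.sqrt (∑ j, lam j * (I j).card / 2 ^ (I j).card) ∧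
    ∀ D : ℕ, (∀ j, lam j ≠ 0 → (I j).card ≤ D) →
      ∑ i, Vale.Agent.P047.fhat f {i} ≤ Real.sqrt D :=
  ⟨Vale.Agent.P047.first_moment_partition I c lam hcover,
    Vale.Agent.P047.first_level_le_sqrt I c lam hlam hcover f hf hconst,
    fun D hD => (Vale.Agent.P047.first_level_le_sqrt I c lam hlam hcover f hf hconst).trans
      (Real.sqrt_le_sqrt (Vale.Agent.P047.mean_width_le I c lam hlam hcover D hD))⟩
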