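import Vale.Agent.P047.Threshold

/-- **Linear threshold functions.**  Let `f x = 1` if `∑ a_i x_i ≥ θ` and `f x = -1` otherwise, on the
cube `{-1,1}^n`, with arbitrary real weights `a_i` and threshold `θ`, and suppose `f` has degree at
most `d`.  Then `f` depends on at most `2 d - 1` coordinates (so a threshold function depending on
`r` coordinates has degree at least `(r+1)/2`), and `(∑_i |f^({i})|)^2 ≤ 2 d - 1`. -/
theorem Vale.Agent.Results.P047.ThresholdFunctions.result {n d : ℕ} (a : Fin n → ℝ) (θ : ℝ)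
    (f : (Fin n → Bool) → ℝ)
    (hf : ∀ x, f x = if θ ≤ ∑ i, a i * Vale.Agent.P047.spin (x i) then 1 else -1)
    (hdeg : ∀ S : Finset (Fin n), d < S.card → Vale.Agent.P047.fhat f S = 0) :
    (Finset.univ.filter (fun i : Fin n =>
        ∃ x, f (Function.update x i true) ≠ f (Function.update x i false))).card ≤ 2 * d - 1 ∧
    (∑ i, |Vale.Agent.P047.fhat f {i}|) ^ 2 ≤ ((2 * d - 1 : ℕ) : ℝ) :=
  ⟨Vale.Agent.P047.threshold_relevant_card_le a θ f hf hdeg _ (fun i hi =>
      (Finset.mem_filter.mp hi).2),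
    Vale.Agent.P047.threshold_first_level a θ f hf hdeg⟩
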